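import Vale.Agent.P181.H59.Spec

/-!
# P181, S5: the certification columns from the probability bound (leaf [S5-SEQ])
-/

set_option autoImplicit false

namespace Vale.Agent.P181.H328.Seq

open Finset Vale.Agent.P181.H59

variable {b g n : ℕ}

lemma star_card (S : Sys b g n) (i : Fin n ⊕ Fin n) : 2 ^ g ≤ (S.st i).card := by
  classical
  have h : (univ : Finset (Fin g → Bool)) ⊆ (S.st i).image S.col := by
    intro κ _
    obtain ⟨p, hp, h⟩ := S.colour i κ
    exact mem_image.2 ⟨p, hp, h⟩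
  calc 2 ^ g = (univ : Finset (Fin g → Bool)).card := by simp
    _ ≤ _ := card_le_card h
    _ ≤ _ := card_image_le

lemma av_nonempty (S : Sys b g n) (u : Fin g) (β : Bool) (i : Fin n ⊕ Fin n) :
    (av S u β i).Nonempty := by
  rcases i with y | z
  · obtain ⟨p, hp, h⟩ := S.colour (Sum.inl y) (fun _ => β)
    exact ⟨p, mem_filter.2 ⟨hp, by rw [h]⟩⟩
  · obtain ⟨p, hp, h⟩ := S.colour (Sum.inr z) (fun _ => !β)
    exact ⟨p, mem_filter.2 ⟨hp, by rw [h]; simp⟩⟩

lemma av_sub (S : Sys b g n) (u : Fin g) (β : Bool) (i : Fin n ⊕ Fin n) :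
    av S u β i ⊆ S.st i := by
  rcases i with y | z <;> exact filter_subset _ _

lemma inj (S : Sys b g n) (u : Fin g) (β : Bool) (φ : Fin n ⊕ Fin n → Fin b)
    (h : ∀ i, φ i ∈ av S u β i) : Function.Injective φ := by
  intro i j hij
  rcases i with y | z <;> rcases j with y' | z'
  · by_contra hne
    have hd := S.disjL y y' (fun e => hne (by rw [e]))
    exact Finset.disjoint_left.1 hd (av_sub S u β _ (h (Sum.inl y)))
      (hij ▸ av_sub S u β _ (h (Sum.inl y')))
  · exfalso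
    have h1 := (mem_filter.1 (h (Sum.inl y))).2
    have h2 := (mem_filter.1 (h (Sum.inr z'))).2
    rw [hij] at h1
    exact h2 h1
  · exfalso
    have h1 := (mem_filter.1 (h (Sum.inl y'))).2
    have h2 := (mem_filter.1 (h (Sum.inr z))).2
    rw [← hij] at h1
    exact h2 h1
  · by_contra hne
    have hd := S.disjM z z' (fun e => hne (by rw [e]))
    exact Finset.disjoint_left.1 hd (av_sub S u β _ (h (Sum.inr z)))
      (hij ▸ av_sub S u β _ (h (Sum.inr z')))

/-- a sample kills `T`. -/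
def Kill (S : Sys b g n) (φ : Fin n ⊕ Fin n → Fin b) (Z : Finset (Fin n))
    (T : Finset (Fin b)) : Prop :=
  (∀ i, φ i ∉ T) ∧ ∀ y ∈ Z, Disjoint (S.st (Sum.inl y)) T

lemma column (S : Sys b g n) (u : Fin g) (β : Bool) (φ : Fin n ⊕ Fin n → Fin b)
    (hφ : ∀ i, φ i ∈ av S u β i) (Z : Finset (Fin n)) (k : ℕ) (hZ : Z.card = k) (l : ℕ)
    (h1 : n + n ≤ l) (h2 : l ≤ k * 2 ^ g) :
    ∃ A : Finset (Fin b), A.card = l ∧ HasSDR S.st A ∧
      ∀ T : Finset (Fin b), Kill S φ Z T → Disjoint A T := by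
  classical
  set P : Finset (Fin b) := univ.image φ with hP
  set Q : Finset (Fin b) := P ∪ Z.biUnion (fun y => S.st (Sum.inl y)) with hQ
  have hPc : P.card = n + n := by
    rw [hP, card_image_of_injective _ (inj S u β φ hφ)]
    simp
  have hQc : k * 2 ^ g ≤ Q.card := by
    calc k * 2 ^ g = ∑ _y ∈ Z, 2 ^ g := by rw [sum_const, hZ, smul_eq_mul]
      _ ≤ ∑ y ∈ Z, (S.st (Sum.inl y)).card := sum_le_sum fun y _ => star_card S _
      _ = (Z.biUnion (fun y => S.st (Sum.inl y))).card := by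
          rw [card_biUnion]
          intro y _ y' _ hne
          exact S.disjL y y' hne
      _ ≤ Q.card := card_le_card subset_union_right
  obtain ⟨A, hA1, hA2, hA3⟩ := Finset.exists_subsuperset_card_eq
    (subset_union_left : P ⊆ Q) (by rw [hPc]; exact h1) (h2.trans hQc)
  refine ⟨A, hA3, ⟨φ, inj S u β φ hφ, fun i => ⟨hA1 (mem_image_of_mem _ (mem_univ _)),
    av_sub S u β i (hφ i)⟩⟩, ?_⟩
  intro T hT
  rw [Finset.disjoint_left]
  intro p hp
  rcases mem_union.1 (hA2 hp) with h | h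
  · obtain ⟨i, _, rfl⟩ := mem_image.1 h
    exact hT.1 i
  · obtain ⟨y, hy, hp'⟩ := mem_biUnion.1 h
    exact Finset.disjoint_left.1 (hT.2 y hy) hp'

lemma choose_step (k q : ℕ) (hq : 0 < q) :
    ∀ j : ℕ, (k ≤ q) → (1 - (k : ℝ) / q) ^ j * ((q + j).choose k : ℝ) ≤ (q.choose k : ℝ) := by
  intro j hk
  induction j with
  | zero => simp
  | succ j ih =>
    have hq' : (0 : ℝ) < q := by exact_mod_cast hq
    have h0 : 0 ≤ 1 - (k : ℝ) / q := by
      have : (k : ℝ) / q ≤ 1 := by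
        rw [div_le_one hq']; exact_mod_cast hk
      linarith
    have hid := Nat.choose_mul_succ_eq (q + j) k
    have hsub : ((q + j + 1 - k : ℕ) : ℝ) = (q : ℝ) + j + 1 - k := by
      rw [Nat.cast_sub (by omega)]; push_cast; ring
    have hid' : ((q + j).choose k : ℝ) * ((q : ℝ) + j + 1) =
        ((q + j + 1).choose k : ℝ) * ((q : ℝ) + j + 1 - k) := by
      have := congrArg (fun x : ℕ => (x : ℝ)) hid
      simp only [Nat.cast_mul] at this
      rw [hsub] at this
      push_cast at this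
      exact this
    have hstep : (1 - (k : ℝ) / q) * ((q + j + 1).choose k : ℝ) ≤ ((q + j).choose k : ℝ) := by
      have hpos : (0 : ℝ) < (q : ℝ) + j + 1 := by positivity
      have h1 : (1 - (k : ℝ) / q) ≤ ((q : ℝ) + j + 1 - k) / ((q : ℝ) + j + 1) := by
        have h2 : (k : ℝ) / ((q : ℝ) + j + 1) ≤ (k : ℝ) / q := by
          apply div_le_div_of_nonneg_left (by positivity) hq'
          have : (0 : ℝ) ≤ j := by positivity
          linarith
        have h3 : ((q : ℝ) + j + 1 - k) / ((q : ℝ) + j + 1) = 1 - (k : ℝ) / ((q : ℝ) + j + 1) := by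
          field_simp
        rw [h3]; linarith
      calc (1 - (k : ℝ) / q) * ((q + j + 1).choose k : ℝ)
          ≤ ((q : ℝ) + j + 1 - k) / ((q : ℝ) + j + 1) * ((q + j + 1).choose k : ℝ) := by
            apply mul_le_mul_of_nonneg_right h1 (by positivity)
        _ = ((q + j).choose k : ℝ) := by
            rw [div_mul_eq_mul_div, div_eq_iff hpos.ne', mul_comm, ← hid']
    calc (1 - (k : ℝ) / q) ^ (j + 1) * ((q + (j + 1)).choose k : ℝ)
        = (1 - (k : ℝ) / q) ^ j * ((1 - (k : ℝ) / q) * ((q + j + 1).choose k : ℝ)) := by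
          rw [pow_succ, ← add_assoc]; ring
      _ ≤ (1 - (k : ℝ) / q) ^ j * ((q + j).choose k : ℝ) := by
          apply mul_le_mul_of_nonneg_left hstep (pow_nonneg h0 _)
      _ ≤ _ := ih

/-- the number of `L`-stars meeting `T`. -/
lemma meet_card (S : Sys b g n) (T : Finset (Fin b)) :
    (univ.filter fun y : Fin n => ¬ Disjoint (S.st (Sum.inl y)) T).card ≤ T.card := by
  classical
  calc (univ.filter fun y : Fin n => ¬ Disjoint (S.st (Sum.inl y)) T).card
      = ∑ _y ∈ univ.filter fun y : Fin n => ¬ Disjoint (S.st (Sum.inl y)) T, 1 := by simp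
    _ ≤ ∑ y ∈ univ.filter fun y : Fin n => ¬ Disjoint (S.st (Sum.inl y)) T,
          (S.st (Sum.inl y) ∩ T).card := by
        apply sum_le_sum
        intro y hy
        rw [mem_filter] at hy
        rw [Nat.succ_le_iff, card_pos]
        rw [Finset.not_disjoint_iff_nonempty_inter] at hy
        exact hy.2
    _ = ((univ.filter fun y : Fin n => ¬ Disjoint (S.st (Sum.inl y)) T).biUnion
          (fun y => S.st (Sum.inl y) ∩ T)).card := by
        rw [card_biUnion]
        intro y _ y' _ hne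
        exact (S.disjL y y' hne).mono inter_subset_left inter_subset_left
    _ ≤ T.card := by
        apply card_le_card
        intro p hp
        obtain ⟨y, _, hy⟩ := mem_biUnion.1 hp
        exact (mem_inter.1 hy).2

lemma kill_count (S : Sys b g n) (u : Fin g) (β : Bool) (k : ℕ) (T : Finset (Fin b)) (θ : ℝ)
    (hn : 2 ^ g + 2 < n) (hk : k + (2 ^ g + 2) ≤ n) (hT : T.card ≤ 2 ^ g + 2)
    (hθ : θ ≤ (1 - (k : ℝ) / ((n : ℝ) - (2 ^ g + 2))) ^ (2 ^ g + 2)) :
    θ * (n.choose k : ℝ) * ∏ i, ((av S u β i \ T).card : ℝ) ≤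
      ∑ ω ∈ Fintype.piFinset (av S u β) ×ˢ powersetCard k (univ : Finset (Fin n)),
        (open Classical in if Kill S ω.1 ω.2 T then (1 : ℝ) else 0) := by
  classical
  rw [← sum_filter_add_sum_filter_not (Fintype.piFinset (av S u β) ×ˢ
    powersetCard k (univ : Finset (Fin n))) (fun ω => Kill S ω.1 ω.2 T)]
  have e1 : ∑ ω ∈ (Fintype.piFinset (av S u β) ×ˢ
      powersetCard k (univ : Finset (Fin n))).filter (fun ω => Kill S ω.1 ω.2 T),
        (if Kill S ω.1 ω.2 T then (1 : ℝ) else 0) =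
      (((Fintype.piFinset (av S u β) ×ˢ
      powersetCard k (univ : Finset (Fin n))).filter (fun ω => Kill S ω.1 ω.2 T)).card : ℝ) := by
    rw [sum_congr rfl (g := fun _ => (1 : ℝ))]
    · simp
    · intro ω hω
      rw [if_pos (mem_filter.1 hω).2]
  have e2 : 0 ≤ ∑ ω ∈ (Fintype.piFinset (av S u β) ×ˢ
      powersetCard k (univ : Finset (Fin n))).filter (fun ω => ¬ Kill S ω.1 ω.2 T),
        (if Kill S ω.1 ω.2 T then (1 : ℝ) else 0) := by
    apply sum_nonneg
    intro ω _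
    split_ifs <;> norm_num
  have e3 : (Fintype.piFinset (fun i => av S u β i \ T) ×ˢ
      powersetCard k (univ.filter fun y : Fin n => Disjoint (S.st (Sum.inl y)) T)) ⊆
      (Fintype.piFinset (av S u β) ×ˢ
      powersetCard k (univ : Finset (Fin n))).filter (fun ω => Kill S ω.1 ω.2 T) := by
    rintro ⟨φ, Z⟩ h
    rw [mem_product, Fintype.mem_piFinset, mem_powersetCard] at h
    obtain ⟨h1, h2, h3⟩ := h
    rw [mem_filter, mem_product, Fintype.mem_piFinset, mem_powersetCard]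
    refine ⟨⟨fun i => (mem_sdiff.1 (h1 i)).1, subset_univ _, h3⟩, fun i => (mem_sdiff.1 (h1 i)).2,
      fun y hy => (mem_filter.1 (h2 hy)).2⟩
  have e4 := card_le_card e3
  rw [card_product, Fintype.card_piFinset, card_powersetCard] at e4
  have e5 : n - (2 ^ g + 2) ≤ (univ.filter fun y : Fin n => Disjoint (S.st (Sum.inl y)) T).card := by
    have h1 := meet_card S T
    have h2 := card_filter_add_card_filter_not (s := (univ : Finset (Fin n)))
      (fun y : Fin n => Disjoint (S.st (Sum.inl y)) T)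
    rw [card_univ, Fintype.card_fin] at h2
    omega
  have e6 : θ * (n.choose k : ℝ) ≤ (((univ.filter fun y : Fin n =>
      Disjoint (S.st (Sum.inl y)) T).card.choose k : ℕ) : ℝ) := by
    have h1 := choose_step k (n - (2 ^ g + 2)) (by omega) (2 ^ g + 2) (by omega)
    have h2 : n - (2 ^ g + 2) + (2 ^ g + 2) = n := by omega
    have h3 : ((n - (2 ^ g + 2) : ℕ) : ℝ) = (n : ℝ) - (2 ^ g + 2) := by
      rw [Nat.cast_sub (by omega)]; push_cast; ring
    rw [h2, h3] at h1
    calc θ * (n.choose k : ℝ) ≤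
        (1 - (k : ℝ) / ((n : ℝ) - (2 ^ g + 2))) ^ (2 ^ g + 2) * (n.choose k : ℝ) :=
          mul_le_mul_of_nonneg_right hθ (by positivity)
      _ ≤ ((n - (2 ^ g + 2)).choose k : ℝ) := h1
      _ ≤ _ := by exact_mod_cast Nat.choose_le_choose k e5
  have e7 : θ * (n.choose k : ℝ) * ∏ i, ((av S u β i \ T).card : ℝ) ≤
      (((Fintype.piFinset (av S u β) ×ˢ
      powersetCard k (univ : Finset (Fin n))).filter (fun ω => Kill S ω.1 ω.2 T)).card : ℝ) := by
    calc θ * (n.choose k : ℝ) * ∏ i, ((av S u β i \ T).card : ℝ)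
        ≤ (((univ.filter fun y : Fin n =>
          Disjoint (S.st (Sum.inl y)) T).card.choose k : ℕ) : ℝ) *
            ∏ i, ((av S u β i \ T).card : ℝ) :=
          mul_le_mul_of_nonneg_right e6 (prod_nonneg fun _ _ => by positivity)
      _ = (((∏ i, (av S u β i \ T).card) * (univ.filter fun y : Fin n =>
          Disjoint (S.st (Sum.inl y)) T).card.choose k : ℕ) : ℝ) := by
          push_cast; ring
      _ ≤ _ := by exact_mod_cast e4
  rw [e1]
  linarith

/-- for one colour bit: the average over the samples. -/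
lemma avg_uβ (S : Sys b g n) (u : Fin g) (β : Bool) (k : ℕ) (θ : ℝ)
    (hn : 2 ^ g + 2 < n) (hk : k + (2 ^ g + 2) ≤ n)
    (hθ : θ ≤ (1 - (k : ℝ) / ((n : ℝ) - (2 ^ g + 2))) ^ (2 ^ g + 2))
    (F : Finset (Finset (Fin b))) (hF : ∀ T ∈ F, T.card ≤ 2 ^ g + 2)
    (w : Finset (Fin b) → ℝ) (hw : ∀ T, 0 ≤ w T) (R : ℝ)
    (H : ∀ (φ : Fin n ⊕ Fin n → Fin b) (Z : Finset (Fin n)), (∀ i, φ i ∈ av S u β i) →
      Z.card = k → ∑ T ∈ F, (open Classical in if Kill S φ Z T then w T else 0) < R) :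
    ∑ T ∈ F, w T * θ * ∏ i, (((av S u β i \ T).card : ℝ) / (av S u β i).card) < R := by
  classical
  set Ω := Fintype.piFinset (av S u β) ×ˢ powersetCard k (univ : Finset (Fin n)) with hΩ
  have hcard : Ω.card = (∏ i, (av S u β i).card) * n.choose k := by
    rw [hΩ, card_product, Fintype.card_piFinset, card_powersetCard, card_univ, Fintype.card_fin]
  have hpos1 : 0 < ∏ i, (av S u β i).card :=
    prod_pos fun i _ => card_pos.2 (av_nonempty S u β i)
  have hpos2 : 0 < n.choose k := Nat.choose_pos (le_trans (Nat.le_add_right _ _) hk)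
  have hpos : 0 < Ω.card := by
    rw [hcard]
    exact Nat.mul_pos hpos1 hpos2
  have hne : Ω.Nonempty := card_pos.1 hpos
  have h1 : ∑ ω ∈ Ω, ∑ T ∈ F, (if Kill S ω.1 ω.2 T then w T else 0) < ∑ _ω ∈ Ω, R := by
    apply sum_lt_sum_of_nonempty hne
    rintro ⟨φ, Z⟩ h
    rw [hΩ, mem_product, Fintype.mem_piFinset, mem_powersetCard] at h
    exact H φ Z h.1 h.2.2
  rw [sum_const, nsmul_eq_mul, sum_comm] at h1
  have h2 : ∑ T ∈ F, w T * (θ * (n.choose k : ℝ) * ∏ i, ((av S u β i \ T).card : ℝ)) ≤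
      ∑ T ∈ F, ∑ ω ∈ Ω, (if Kill S ω.1 ω.2 T then w T else 0) := by
    apply sum_le_sum
    intro T hT
    have h3 := kill_count S u β k T θ hn hk (hF T hT) hθ
    calc w T * (θ * (n.choose k : ℝ) * ∏ i, ((av S u β i \ T).card : ℝ))
        ≤ w T * ∑ ω ∈ Ω, (if Kill S ω.1 ω.2 T then (1 : ℝ) else 0) :=
          mul_le_mul_of_nonneg_left h3 (hw T)
      _ = ∑ ω ∈ Ω, (if Kill S ω.1 ω.2 T then w T else 0) := by
          rw [mul_sum]
          apply sum_congr rfl
          intro ω _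
          split_ifs <;> simp
  have h4 := lt_of_le_of_lt h2 h1
  have h5 : ∑ T ∈ F, w T * (θ * (n.choose k : ℝ) * ∏ i, ((av S u β i \ T).card : ℝ)) =
      (Ω.card : ℝ) * ∑ T ∈ F, w T * θ *
        ∏ i, (((av S u β i \ T).card : ℝ) / (av S u β i).card) := by
    rw [mul_sum]
    apply sum_congr rfl
    intro T _
    rw [prod_div_distrib, hcard, Nat.cast_mul, Nat.cast_prod]
    have hne' : (∏ i, ((av S u β i).card : ℝ)) ≠ 0 := by
      rw [← Nat.cast_prod]; exact_mod_cast hpos1.ne'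
    generalize (∏ i, ((av S u β i).card : ℝ)) = X at hne' ⊢
    generalize (∏ i, ((av S u β i \ T).card : ℝ)) = Y
    field_simp
  rw [h5] at h4
  exact lt_of_mul_lt_mul_left h4 (by positivity)

/-- averaging: one sample. -/
lemma one_sample (hP : PickStmt) (S : Sys b g n) (k : ℕ) (θ : ℝ) (hg : 6 ≤ g)
    (hn : 2 ^ g + 2 < n) (hk : k + (2 ^ g + 2) ≤ n) (hθ0 : 0 < θ)
    (hθ : θ ≤ (1 - (k : ℝ) / ((n : ℝ) - (2 ^ g + 2))) ^ (2 ^ g + 2))
    (F : Finset (Finset (Fin b))) (D : Finset (Fin b) → ℕ)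
    (hF : ∀ T ∈ F, T.card ≤ 2 ^ g + 2 ∧ 1 ≤ D T ∧ ∀ i, D T ≤ (S.st i \ T).card)
    (w : Finset (Fin b) → ℝ) (hw : ∀ T, 0 ≤ w T) :
    ∃ (u : Fin g) (β : Bool) (φ : Fin n ⊕ Fin n → Fin b) (Z : Finset (Fin n)),
      (∀ i, φ i ∈ av S u β i) ∧ Z.card = k ∧
      ∑ T ∈ F, w T * (θ * (Real.exp (-25) * D T / (2 * g * 2 ^ g))) ≤
        ∑ T ∈ F, (open Classical in if Kill S φ Z T then w T else 0) := by
  classical
  by_contra hcon
  push Not at hcon
  set R := ∑ T ∈ F, w T * (θ * (Real.exp (-25) * D T / (2 * g * 2 ^ g))) with hR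
  have h1 : ∀ (u : Fin g) (β : Bool),
      ∑ T ∈ F, w T * θ * ∏ i, (((av S u β i \ T).card : ℝ) / (av S u β i).card) < R :=
    fun u β => avg_uβ S u β k θ hn hk hθ F (fun T hT => (hF T hT).1) w hw R
      (fun φ Z h2 h3 => hcon u β φ Z h2 h3)
  have hg0 : (0 : ℝ) < g := by exact_mod_cast (by omega : 0 < g)
  have : Nonempty (Fin g) := ⟨⟨0, by omega⟩⟩
  have h2 : ∑ u : Fin g, ∑ β : Bool,
      ∑ T ∈ F, w T * θ * ∏ i, (((av S u β i \ T).card : ℝ) / (av S u β i).card) <
      ∑ _u : Fin g, ∑ _β : Bool, R := by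
    apply sum_lt_sum_of_nonempty univ_nonempty
    intro u _
    apply sum_lt_sum_of_nonempty univ_nonempty
    intro β _
    exact h1 u β
  have h3 : ∑ u : Fin g, ∑ β : Bool,
      ∑ T ∈ F, w T * θ * ∏ i, (((av S u β i \ T).card : ℝ) / (av S u β i).card) =
      (2 * g) * ∑ T ∈ F, w T * θ * pick S T := by
    have e1 : ∀ u : Fin g, ∑ β : Bool,
        ∑ T ∈ F, w T * θ * ∏ i, (((av S u β i \ T).card : ℝ) / (av S u β i).card) =
        ∑ T ∈ F, ∑ β : Bool,
          w T * θ * ∏ i, (((av S u β i \ T).card : ℝ) / (av S u β i).card) :=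
      fun u => sum_comm
    rw [sum_congr rfl (fun u _ => e1 u), sum_comm, mul_sum]
    apply sum_congr rfl
    intro T _
    unfold pick
    have e2 : ∀ u : Fin g, ∑ β : Bool,
          w T * θ * ∏ i, (((av S u β i \ T).card : ℝ) / (av S u β i).card) =
        w T * θ * ∑ β : Bool, ∏ i, (((av S u β i \ T).card : ℝ) / (av S u β i).card) :=
      fun u => (mul_sum _ _ _).symm
    rw [sum_congr rfl (fun u _ => e2 u), ← mul_sum]
    generalize (∑ u : Fin g, ∑ β : Bool,
      ∏ i, (((av S u β i \ T).card : ℝ) / (av S u β i).card)) = X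
    field_simp
  have h4 : ∑ _u : Fin g, ∑ _β : Bool, R = (2 * g) * R := by
    simp
    ring
  rw [h3, h4] at h2
  have h5 : ∑ T ∈ F, w T * θ * pick S T < R := lt_of_mul_lt_mul_left h2 (by positivity)
  have h6 : R ≤ ∑ T ∈ F, w T * θ * pick S T := by
    rw [hR]
    apply sum_le_sum
    intro T hT
    have h7 := hP b g n (D T) S T hg (lt_of_le_of_lt (Nat.zero_le _) hn) (hF T hT).1
      (hF T hT).2.1 (hF T hT).2.2
    rw [mul_assoc (w T) θ (pick S T)]
    exact mul_le_mul_of_nonneg_left (mul_le_mul_of_nonneg_left h7 hθ0.le) (hw T)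
  linarith

/-- sequential choice of the samples (conditional expectations). -/
lemma seq_choice {Ω K : Type} (F : Finset K) (kill : Ω → K → Prop) (s : K → ℝ)
    (hs : ∀ T, 0 ≤ s T)
    (H : ∀ w : K → ℝ, (∀ T, 0 ≤ w T) → ∃ ω, ∑ T ∈ F,
      (open Classical in if kill ω T then 0 else w T) ≤ ∑ T ∈ F, w T * s T) :
    ∀ (N : ℕ) (w : K → ℝ), (∀ T, 0 ≤ w T) → ∃ ω : Fin N → Ω, ∑ T ∈ F,
      (open Classical in if (∃ c, kill (ω c) T) then 0 else w T) ≤ ∑ T ∈ F, w T * s T ^ N := by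
  classical
  intro N
  induction N with
  | zero =>
    intro w _
    refine ⟨fun c => c.elim0, ?_⟩
    apply le_of_eq
    apply sum_congr rfl
    intro T _
    rw [if_neg]
    · simp
    · rintro ⟨c, _⟩; exact c.elim0
  | succ N ih =>
    intro w hw
    obtain ⟨ω, hω⟩ := ih (fun T => w T * s T) (fun T => mul_nonneg (hw T) (hs T))
    obtain ⟨ω', hω'⟩ := H (fun T => if (∃ c, kill (ω c) T) then 0 else w T)
      (fun T => by
        show 0 ≤ (if (∃ c, kill (ω c) T) then 0 else w T)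
        split_ifs
        · exact le_rfl
        · exact hw T)
    refine ⟨Fin.cons ω' ω, ?_⟩
    calc ∑ T ∈ F, (if (∃ c, kill ((Fin.cons ω' ω : Fin (N+1) → Ω) c) T) then 0 else w T)
        ≤ ∑ T ∈ F, (if kill ω' T then 0 else (if (∃ c, kill (ω c) T) then 0 else w T)) := by
          apply sum_le_sum
          intro T _
          by_cases h1 : kill ω' T
          · rw [if_pos h1, if_pos ⟨0, by simpa using h1⟩]
          · by_cases h2 : ∃ c, kill (ω c) T
            · obtain ⟨c, hc⟩ := h2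
              have h3 : ∃ c, kill ((Fin.cons ω' ω : Fin (N + 1) → Ω) c) T :=
                ⟨c.succ, by simpa using hc⟩
              rw [if_pos h3, if_neg h1, if_pos ⟨c, hc⟩]
            · rw [if_neg h1, if_neg h2, if_neg]
              rintro ⟨c, hc⟩
              rcases Fin.eq_zero_or_eq_succ c with rfl | ⟨j, rfl⟩
              · exact h1 (by simpa using hc)
              · exact h2 ⟨j, by simpa using hc⟩
      _ ≤ ∑ T ∈ F, (if (∃ c, kill (ω c) T) then 0 else w T) * s T := hω'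
      _ = ∑ T ∈ F, (if (∃ c, kill (ω c) T) then 0 else w T * s T) := by
          apply sum_congr rfl
          intro T _
          split_ifs <;> simp
      _ ≤ ∑ T ∈ F, w T * s T * s T ^ N := hω
      _ = ∑ T ∈ F, w T * s T ^ (N + 1) := by
          apply sum_congr rfl
          intro T _
          rw [pow_succ]; ring

/-- missing part of the star that is closest to being contained in `T`. -/
noncomputable def DD (S : Sys b g n) (T : Finset (Fin b)) : ℕ :=
  sInf (Set.range fun i : Fin n ⊕ Fin n => (S.st i \ T).card)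

lemma DD_le (S : Sys b g n) (T : Finset (Fin b)) (i : Fin n ⊕ Fin n) :
    DD S T ≤ (S.st i \ T).card := Nat.sInf_le ⟨i, rfl⟩

lemma DD_eq (S : Sys b g n) (T : Finset (Fin b)) (hn : 0 < n) :
    ∃ i, (S.st i \ T).card = DD S T := by
  have h := Nat.sInf_mem (s := Set.range fun i : Fin n ⊕ Fin n => (S.st i \ T).card)
    ⟨_, ⟨Sum.inl ⟨0, hn⟩, rfl⟩⟩
  obtain ⟨i, hi⟩ := h
  exact ⟨i, hi⟩

lemma geom (b : ℕ) (q : ℝ) (hq0 : 0 ≤ q) (hq1 : (b : ℝ) * q ≤ 1) (m : ℕ) (hm : 1 ≤ m)
    (hq2 : q ≤ 1) :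
    ∑ Y : Finset (Fin b), q ^ (m * Y.card) ≤ 3 := by
  have h1 : ∑ Y : Finset (Fin b), q ^ (m * Y.card) = (q ^ m + 1) ^ b := by
    have h := Finset.sum_pow_mul_eq_add_pow (q ^ m) (1 : ℝ) (univ : Finset (Fin b))
    rw [powerset_univ, card_univ, Fintype.card_fin] at h
    rw [← h]
    apply sum_congr rfl
    intro Y _
    rw [one_pow, mul_one, pow_mul]
  rw [h1]
  have h2 : q ^ m ≤ q := by
    calc q ^ m ≤ q ^ 1 := pow_le_pow_of_le_one hq0 hq2 hm
      _ = q := pow_one q
  calc (q ^ m + 1) ^ b ≤ (Real.exp q) ^ b := by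
        apply pow_le_pow_left₀ (by positivity)
        have := Real.add_one_le_exp q
        linarith
    _ = Real.exp ((b : ℝ) * q) := by rw [← Real.exp_nat_mul]
    _ ≤ Real.exp 1 := Real.exp_le_exp.2 hq1
    _ ≤ 3 := by have := Real.exp_one_lt_d9; linarith

/-- the union bound. -/
lemma union_bound (S : Sys b g n) (F : Finset (Finset (Fin b)))
    (hn : 0 < n) (hb : n + n ≤ b) (hb2 : 8 ≤ b)
    (hF : ∀ T ∈ F, T.card ≤ 2 ^ g + 2 ∧ 1 ≤ DD S T) (q : ℝ) (hq : q = 1 / ((b : ℝ) + 1)) :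
    ∑ T ∈ F, q ^ (50 * DD S T) < 1 := by
  classical
  have hb0 : (0 : ℝ) < (b : ℝ) + 1 := by positivity
  have hq0 : 0 < q := by rw [hq]; positivity
  have hq1 : (b : ℝ) * q ≤ 1 := by
    rw [hq, mul_one_div, div_le_one hb0]; linarith
  have hq2 : q ≤ 1 := by
    rw [hq, div_le_one hb0]
    have : (0 : ℝ) ≤ b := by positivity
    linarith
  choose ι hι using fun T => DD_eq S T hn
  set f : Finset (Fin b) → (Fin n ⊕ Fin n) × Finset (Fin b) × Finset (Fin b) :=
    fun T => (ι T, S.st (ι T) \ T, T \ S.st (ι T)) with hf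
  have hinj : Function.Injective f := by
    intro T T' h
    rw [hf] at h
    simp only [Prod.mk.injEq] at h
    obtain ⟨h1, h2, h3⟩ := h
    rw [h1] at h2 h3
    ext p
    have h2' := Finset.ext_iff.1 h2 p
    have h3' := Finset.ext_iff.1 h3 p
    simp only [mem_sdiff] at h2' h3'
    tauto
  have hterm : ∀ T ∈ F, q ^ (50 * DD S T) ≤
      q ^ 4 * (q ^ (1 * (f T).2.1.card) * q ^ (1 * (f T).2.2.card)) := by
    intro T hT
    obtain ⟨hT1, hT2⟩ := hF T hT
    have h1 : (f T).2.1.card = DD S T := hι T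
    have h2 : (f T).2.2.card ≤ DD S T + 2 := by
      have e1 : (T \ S.st (ι T)).card + (T ∩ S.st (ι T)).card = T.card :=
        card_sdiff_add_card_inter _ _
      have e2 : (S.st (ι T) \ T).card + (S.st (ι T) ∩ T).card = (S.st (ι T)).card :=
        card_sdiff_add_card_inter _ _
      have e3 := star_card S (ι T)
      have e4 := hι T
      rw [inter_comm] at e2
      show (T \ S.st (ι T)).card ≤ _
      omega
    rw [h1, ← pow_add, ← pow_add]
    apply pow_le_pow_of_le_one hq0.le hq2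
    omega
  calc ∑ T ∈ F, q ^ (50 * DD S T)
      ≤ ∑ T ∈ F, q ^ 4 * (q ^ (1 * (f T).2.1.card) * q ^ (1 * (f T).2.2.card)) :=
        sum_le_sum hterm
    _ = ∑ x ∈ F.image f, q ^ 4 * (q ^ (1 * x.2.1.card) * q ^ (1 * x.2.2.card)) := by
        rw [sum_image (fun a _ b _ h => hinj h)]
    _ ≤ ∑ x : (Fin n ⊕ Fin n) × Finset (Fin b) × Finset (Fin b),
          q ^ 4 * (q ^ (1 * x.2.1.card) * q ^ (1 * x.2.2.card)) :=
        sum_le_sum_of_subset_of_nonneg (subset_univ _) (fun _ _ _ => by positivity)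
    _ = ∑ _i : Fin n ⊕ Fin n, q ^ 4 * ((∑ X : Finset (Fin b), q ^ (1 * X.card)) *
          ∑ Y : Finset (Fin b), q ^ (1 * Y.card)) := by
        rw [Fintype.sum_prod_type]
        apply sum_congr rfl
        intro i _
        rw [Fintype.sum_prod_type, sum_mul_sum, mul_sum]
        apply sum_congr rfl
        intro X _
        rw [mul_sum]
    _ ≤ ∑ _i : Fin n ⊕ Fin n, q ^ 4 * (3 * 3) := by
        apply sum_le_sum
        intro i _
        apply mul_le_mul_of_nonneg_left _ (by positivity)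
        have h := geom b q hq0.le hq1 1 le_rfl hq2
        apply mul_le_mul h h (sum_nonneg fun _ _ => by positivity) (by norm_num)
    _ = (n + n : ℝ) * q ^ 4 * 9 := by
        rw [sum_const, nsmul_eq_mul, card_univ, Fintype.card_sum, Fintype.card_fin]
        push_cast
        ring
    _ ≤ (b : ℝ) * q ^ 4 * 9 := by
        have : (n + n : ℝ) ≤ b := by exact_mod_cast hb
        gcongr
    _ = ((b : ℝ) * q) * (9 * q * q ^ 2) := by ring
    _ ≤ 1 * (9 * q * q ^ 2) := by
        apply mul_le_mul_of_nonneg_right hq1 (by positivity)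
    _ < 1 := by
        have h9 : 9 * q ≤ 1 := by
          rw [hq, mul_one_div, div_le_one hb0]
          have : (8 : ℝ) ≤ b := by exact_mod_cast hb2
          linarith
        have h10 : q ^ 2 < 1 := by
          have : q < 1 := by nlinarith
          nlinarith
        have h11 : 0 ≤ q ^ 2 := by positivity
        nlinarith

/-- **[S5-SEQ]** -/
theorem seq_stmt : SeqStmt := by
  classical
  intro hP b g n k N θ S hg hn hk hb hθ0 hθ hN len hlen
  have hn0 : 0 < n := lt_of_le_of_lt (Nat.zero_le _) hn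
  have hb8 : 8 ≤ b := by
    have h1 : 2 ^ 6 ≤ 2 ^ g := Nat.pow_le_pow_right (by norm_num) hg
    omega
  set F : Finset (Finset (Fin b)) := univ.filter fun T =>
    T.card ≤ 2 ^ g + 2 ∧ ∀ i, ¬ S.st i ⊆ T with hF
  have hD1 : ∀ T ∈ F, 1 ≤ DD S T := by
    intro T hT
    obtain ⟨i, hi⟩ := DD_eq S T hn0
    rw [← hi, Nat.succ_le_iff, card_pos, sdiff_nonempty]
    exact (mem_filter.1 hT).2.2 i
  set q : ℝ := 1 / ((b : ℝ) + 1) with hq
  set r : Finset (Fin b) → ℝ := fun T =>
    θ * (Real.exp (-25) * DD S T / (2 * g * 2 ^ g)) with hr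
  -- the samples
  let Ω := {ω : (Fin n ⊕ Fin n → Fin b) × Finset (Fin n) //
    (∃ (u : Fin g) (β : Bool), ∀ i, ω.1 i ∈ av S u β i) ∧ ω.2.card = k}
  have H : ∀ w : Finset (Fin b) → ℝ, (∀ T, 0 ≤ w T) → ∃ ω : Ω, ∑ T ∈ F,
      (if Kill S ω.1.1 ω.1.2 T then 0 else w T) ≤ ∑ T ∈ F, w T * Real.exp (-r T) := by
    intro w hw
    obtain ⟨u, β, φ, Z, h1, h2, h3⟩ := one_sample hP S k θ hg hn hk hθ0 hθ F (DD S)
      (fun T hT => ⟨(mem_filter.1 hT).2.1, hD1 T hT, DD_le S T⟩) w hw
    refine ⟨⟨(φ, Z), ⟨u, β, h1⟩, h2⟩, ?_⟩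
    have h4 : ∑ T ∈ F, (if Kill S φ Z T then 0 else w T) =
        ∑ T ∈ F, w T - ∑ T ∈ F, (if Kill S φ Z T then w T else 0) := by
      rw [← sum_sub_distrib]
      apply sum_congr rfl
      intro T _
      split_ifs <;> simp
    show ∑ T ∈ F, (if Kill S φ Z T then 0 else w T) ≤ _
    rw [h4]
    calc ∑ T ∈ F, w T - ∑ T ∈ F, (if Kill S φ Z T then w T else 0)
        ≤ ∑ T ∈ F, w T - ∑ T ∈ F, w T * r T := by
          have : ∑ T ∈ F, w T * r T ≤ ∑ T ∈ F, (if Kill S φ Z T then w T else 0) := h3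
          linarith
      _ = ∑ T ∈ F, w T * (1 - r T) := by
          rw [← sum_sub_distrib]
          apply sum_congr rfl
          intro T _
          ring
      _ ≤ ∑ T ∈ F, w T * Real.exp (-r T) := by
          apply sum_le_sum
          intro T _
          apply mul_le_mul_of_nonneg_left _ (hw T)
          have := Real.add_one_le_exp (-r T)
          linarith
  obtain ⟨ω, hω⟩ := seq_choice F (fun (ω : Ω) T => Kill S ω.1.1 ω.1.2 T)
    (fun T => Real.exp (-r T)) (fun T => (Real.exp_pos _).le) H N (fun _ => 1)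
    (fun _ => zero_le_one)
  have hsum : ∑ T ∈ F, (1 : ℝ) * Real.exp (-r T) ^ N < 1 := by
    refine lt_of_le_of_lt ?_ (union_bound S F hn0 hb hb8
      (fun T hT => ⟨(mem_filter.1 hT).2.1, hD1 T hT⟩) q hq)
    apply sum_le_sum
    intro T hT
    rw [one_mul, ← Real.exp_nat_mul]
    have hb1 : (0 : ℝ) < (b : ℝ) + 1 := by positivity
    have e1 : q ^ (50 * DD S T) =
        Real.exp (((50 * DD S T : ℕ) : ℝ) * (-Real.log ((b : ℝ) + 1))) := by
      rw [Real.exp_nat_mul, Real.exp_neg, Real.exp_log hb1, hq, one_div]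
    rw [e1]
    apply Real.exp_le_exp.2
    have hg0 : (0 : ℝ) < g := by exact_mod_cast (by omega : 0 < g)
    have h2g : (0 : ℝ) < 2 ^ g := by positivity
    have e2 : (N : ℝ) * r T = (N * (θ * Real.exp (-25))) * (DD S T / (2 * g * 2 ^ g)) := by
      rw [hr]; ring
    have e3 : (100 * g * 2 ^ g * Real.log (b + 1)) * (DD S T / (2 * g * 2 ^ g)) ≤
        (N * (θ * Real.exp (-25))) * (DD S T / (2 * g * 2 ^ g)) :=
      mul_le_mul_of_nonneg_right hN (by positivity)
    have e4 : (100 * g * 2 ^ g * Real.log (b + 1)) * (DD S T / (2 * g * 2 ^ g)) =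
        50 * DD S T * Real.log ((b : ℝ) + 1) := by
      field_simp
      ring
    push_cast
    have e5 : (N : ℝ) * -r T = -((N : ℝ) * r T) := by ring
    rw [e5, e2]
    linarith
  have hkill : ∀ T ∈ F, ∃ c, Kill S (ω c).1.1 (ω c).1.2 T := by
    intro T hT
    by_contra hcon
    have h1 : (1 : ℝ) ≤ ∑ T ∈ F, (if (∃ c, Kill S (ω c).1.1 (ω c).1.2 T) then 0 else 1) := by
      calc (1 : ℝ) = (if (∃ c, Kill S (ω c).1.1 (ω c).1.2 T) then 0 else 1) := by
            rw [if_neg hcon]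
        _ ≤ _ := single_le_sum (f := fun T => (if (∃ c, Kill S (ω c).1.1 (ω c).1.2 T) then
              (0 : ℝ) else 1)) (fun T _ => by
              show (0 : ℝ) ≤ (if (∃ c, Kill S (ω c).1.1 (ω c).1.2 T) then (0 : ℝ) else 1)
              split_ifs <;> norm_num) hT
    have h2 : ∑ T ∈ F, (if (∃ c, Kill S (ω c).1.1 (ω c).1.2 T) then (0 : ℝ) else 1) < 1 :=
      lt_of_le_of_lt hω hsum
    linarith
  have hcol : ∀ c, ∃ A : Finset (Fin b), A.card = len c ∧ HasSDR S.st A ∧
      ∀ T : Finset (Fin b), Kill S (ω c).1.1 (ω c).1.2 T → Disjoint A T := by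
    intro c
    obtain ⟨⟨u, β, h1⟩, h2⟩ := (ω c).2
    exact column S u β (ω c).1.1 h1 (ω c).1.2 k h2 (len c) (hlen c).1 (hlen c).2
  choose A hA using hcol
  refine ⟨A, fun c => (hA c).1, fun c => (hA c).2.1, fun T hT1 hT2 => ?_⟩
  obtain ⟨c, hc⟩ := hkill T (mem_filter.2 ⟨mem_univ _, hT1, hT2⟩)
  exact ⟨c, (hA c).2.2 T hc⟩

end Vale.Agent.P181.H328.Seq
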