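import Mathlib

/-!
P181, T7 (helper328): the link lemma, block version.

The rows `i < R` are cut into blocks: `nx i` is the end of the block of `i` (a row with a gap).
The label of a pure letter of class `i` is `< nx i` (it occurs in a column of length `nx i`), hence
it lies in the block of `i`; inside a block the labels are forced by a chain of columns, two
consecutive ones differing in at most one row of the block.
-/

set_option autoImplicit false

namespace Vale.Agent.P181.T7

open Finset

section

variable {T Q : Type*} [Fintype T] [Fintype Q] {R : ℕ}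

/-- labels and classes have the same distribution -/
theorem sum_label_eq (cls : T → Fin R) (χ : T ⊕ Q → Option (Fin R))
    (hcard : ∀ i : Fin R, (univ.filter fun p => χ p = some i).card =
      (univ.filter fun t => cls t = i).card)
    (hnone : ∀ q, χ (Sum.inr q) = none) (f : T → Fin R) (hf : ∀ t, χ (Sum.inl t) = some (f t))
    (g : Fin R → ℕ) : ∑ t, g (f t) = ∑ t, g (cls t) := by
  classical
  have h1 : ∀ i : Fin R, (univ.filter fun t => f t = i).card =
      (univ.filter fun t => cls t = i).card := by
    intro i
    rw [← hcard i]
    have h1 : (univ.filter fun p : T ⊕ Q => χ p = some i) =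
        (univ.filter fun t => f t = i).map ⟨Sum.inl, Sum.inl_injective⟩ := by
      ext p
      simp only [mem_filter, mem_univ, true_and, mem_map, Function.Embedding.coeFn_mk]
      constructor
      · intro hp
        rcases p with t | q
        · rw [hf t] at hp
          exact ⟨t, Option.some.inj hp, rfl⟩
        · rw [hnone q] at hp
          exact absurd hp (by simp)
      · rintro ⟨t, ht, rfl⟩
        rw [hf t, ht]
    rw [h1, card_map]
  have h2 : ∀ h : T → Fin R, ∑ t, g (h t) = ∑ i, (univ.filter fun t => h t = i).card * g i := by
    intro h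
    rw [← sum_fiberwise univ h]
    refine sum_congr rfl fun i _ => ?_
    rw [sum_congr rfl (g := fun _ => g i), sum_const, smul_eq_mul]
    intro t ht
    rw [(mem_filter.1 ht).2]
  rw [h2, h2]
  exact sum_congr rfl fun i _ => by rw [h1]

/-- **link lemma, block version** -/
theorem link_blocks (cls : T → Fin R) (χ : T ⊕ Q → Option (Fin R))
    (hcard : ∀ i : Fin R, (univ.filter fun p => χ p = some i).card =
      (univ.filter fun t => cls t = i).card)
    (hsome : ∀ t, χ (Sum.inl t) ≠ none) (hnone : ∀ q, χ (Sum.inr q) = none)
    (nx : ℕ → ℕ) (hnx1 : ∀ i < R, i < nx i)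
    (hnx2 : ∀ i i', i ≤ i' → i' < nx i → nx i' = nx i)
    (hocc : ∀ t, ∀ j : Fin R, χ (Sum.inl t) = some j → (j : ℕ) < nx (cls t))
    (L : ℕ → ℕ) (hL : ∀ i : Fin R, 0 < L (nx i)) (col : ℕ → ℕ → Fin R → T)
    (hcls : ∀ i : Fin R, ∀ c < L (nx i), cls (col (nx i) c i) = i)
    (hcol : ∀ r, ∀ c < L r, ∀ i i' : Fin R, nx i = r → nx i' = r → i ≠ i' →
      χ (Sum.inl (col r c i)) ≠ χ (Sum.inl (col r c i')))
    (hstep : ∀ r c, c + 1 < L r → ∃ i : Fin R, ∀ i' : Fin R, nx i' = r → i' ≠ i →
      col r (c + 1) i' = col r c i')
    (hcover : ∀ t, ∃ c < L (nx (cls t)), col (nx (cls t)) c (cls t) = t)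
    (hw : ∀ i i' : Fin R, i < i' → (univ.filter fun t => cls t = i').card <
      (univ.filter fun t => cls t = i).card) :
    ∀ t, χ (Sum.inl t) = some (cls t) := by
  classical
  have hex : ∀ t, ∃ k, χ (Sum.inl t) = some k := fun t =>
    Option.ne_none_iff_exists'.mp (hsome t)
  choose f hf using hex
  -- the label of a class lies in its block
  have hle : ∀ t, nx (f t) ≤ nx (cls t) := by
    intro t
    have h1 := hocc t _ (hf t)
    rcases Nat.lt_or_ge (f t) (cls t) with h | h
    · rcases Nat.lt_or_ge (cls t) (nx (f t)) with h2 | h2
      · exact (hnx2 _ _ h.le h2).ge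
      · have := hnx1 (cls t) (cls t).2
        omega
    · exact (hnx2 _ _ h h1).le
  have heq : ∀ t, nx (f t) = nx (cls t) := by
    have h1 := sum_label_eq cls χ hcard hnone f hf (fun i => nx i)
    intro t
    exact (sum_eq_sum_iff_of_le fun t _ => hle t).1 h1 t (mem_univ t)
  -- inside a block
  have hconst : ∀ r, ∀ c < L r, ∀ i : Fin R, nx i = r → f (col r c i) = f (col r 0 i) := by
    intro r c
    induction c with
    | zero => intro _ i _; rfl
    | succ c ih =>
      intro hc i hi
      obtain ⟨i0, hi0⟩ := hstep r c hc
      have ihc := ih (by omega)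
      by_cases hii : i = i0
      · subst hii
        -- the map i ↦ label on the block is a bijection of the block
        set B := {j : Fin R // nx j = r} with hB
        have hmap : ∀ c < L r, ∀ j : B, nx (f (col r c j.1)) = r := by
          intro c hc j
          obtain ⟨j, hj⟩ := j
          subst hj
          rw [heq, hcls j c hc]
        have hinj : ∀ c (hc : c < L r), Function.Injective
            (fun j : B => (⟨f (col r c j.1), hmap c hc j⟩ : B)) := by
          intro c hc j j' hjj
          by_contra hne
          refine hcol r c hc j.1 j'.1 j.2 j'.2 (fun h => hne (Subtype.ext h)) ?_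
          rw [hf, hf]
          exact congrArg some (congrArg Subtype.val hjj)
        obtain ⟨j, hj⟩ := (Finite.injective_iff_surjective.mp (hinj (c + 1) hc))
          ⟨f (col r c i), hmap c (by omega) ⟨i, hi⟩⟩
        have hj' : f (col r (c + 1) j.1) = f (col r c i) := congrArg Subtype.val hj
        rw [← ihc i hi]
        by_cases hji : j.1 = i
        · rw [hji] at hj'
          exact hj'
        · exfalso
          rw [hi0 j.1 j.2 hji] at hj'
          have := hinj c (by omega) (a₁ := j) (a₂ := ⟨i, hi⟩) (Subtype.ext hj')
          exact hji (congrArg Subtype.val this)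
      · rw [hi0 i hi hii]
        exact ihc i hi
  set ρ : Fin R → Fin R := fun i => f (col (nx i) 0 i) with hρ
  have hχ : ∀ t, χ (Sum.inl t) = some (ρ (cls t)) := by
    intro t
    obtain ⟨c, hc, hct⟩ := hcover t
    have := hconst (nx (cls t)) c hc (cls t) rfl
    rw [hct] at this
    rw [hf, this]
  have hρnx : ∀ i, nx (ρ i) = nx i := by
    intro i
    simp only [hρ]
    rw [heq, hcls i 0 (hL i)]
  have hρinj : Function.Injective ρ := by
    intro i i' hii
    by_contra hne
    have h1 : nx i = nx i' := by rw [← hρnx i, ← hρnx i', hii]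
    refine hcol (nx i) 0 (hL i) i i' rfl h1.symm hne ?_
    rw [hf, hf]
    simp only [hρ] at hii
    rw [hii, h1]
  have hsz : ∀ i, (univ.filter fun t => cls t = ρ i).card = (univ.filter fun t => cls t = i).card := by
    intro i
    rw [← hcard (ρ i)]
    have h1 : (univ.filter fun p : T ⊕ Q => χ p = some (ρ i)) =
        (univ.filter fun t => cls t = i).map ⟨Sum.inl, Sum.inl_injective⟩ := by
      ext p
      simp only [mem_filter, mem_univ, true_and, mem_map, Function.Embedding.coeFn_mk]
      constructor
      · intro hp
        rcases p with t | q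
        · rw [hχ t] at hp
          exact ⟨t, hρinj (Option.some.inj hp), rfl⟩
        · rw [hnone q] at hp
          exact absurd hp (by simp)
      · rintro ⟨t, ht, rfl⟩
        rw [hχ t, ht]
    rw [h1, card_map]
  have hid : ∀ i, ρ i = i := by
    intro i
    have h := hsz i
    rcases lt_trichotomy (ρ i) i with hlt | heq | hgt
    · have := hw _ _ hlt; omega
    · exact heq
    · have := hw _ _ hgt; omega
  intro t
  rw [hχ t, hid]

end

end Vale.Agent.P181.T7
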