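import Vale.Agent.P181.T7.Spec
import Vale.Agent.P181.T7.Asm7

set_option autoImplicit false

namespace Vale.Agent.P181.H328

open Vale.Agent.P181.T4 Vale.Agent.P181.T7 Filter

/-- **(Split)** -/
theorem split_stmt : T7.SplitStmt := by
  intro δ hδ hδ1
  filter_upwards [T7.split δ hδ hδ1, eventually_ge_atTop 1] with a h ha b lam hb hlam hsum h2
  rcases h b hb lam hlam hsum h2 with ⟨R, -, h3, h4, h5⟩ | ⟨R1, r, -, h3, h4, h5, h6, h7⟩
  · exact Or.inl ⟨R, h3, h4, h5⟩
  · refine Or.inr ⟨R1, r, h3, h6, h4, h5, ?_⟩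
    have hpos : (0 : ℝ) < (a : ℝ) ^ (3 / 2 + 16 * δ) := by
      have : (0 : ℝ) < a := by exact_mod_cast ha
      positivity
    have h8 : ex lam r ≤ ex lam (r - 1) := by
      by_contra hlt
      rw [Nat.sub_eq_zero_of_le (by omega)] at h7
      simp at h7
      linarith
    rw [Nat.cast_sub h8] at h7
    linarith

end Vale.Agent.P181.H328
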