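import Mathlib

/-!
P181, T7 (helper328): families of type systems with prescribed totals.

`N = 2 n` or `2 n + 1` free letters, letter `q` has top degree `t q`; the types `u q : Fin (r+1) → ℕ`
have `∑ i, u q i = t q`, `∑ q, u q i = tot i`, all entries `≥ 2`, pairwise different, and different
members of the family are not permutations of each other.
-/

set_option autoImplicit false
set_option linter.unusedSectionVars false
set_option linter.unusedVariables false

namespace Vale.Agent.P181.T7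

open Finset

namespace Typ

variable {r : ℕ}

/-- the index set: even vectors in a box, coordinate `0` in the lower half -/
noncomputable def Q (r Y : ℕ) : Finset (Fin r → ℕ) :=
  Fintype.piFinset fun i : Fin r => range (if (i : ℕ) = 0 then (Y - 1) / 4 else Y / 2 - 1)

lemma card_Q {r : ℕ} (hr : 2 ≤ r) (Y : ℕ) :
    (Q r Y).card = ((Y - 1) / 4) * (Y / 2 - 1) ^ (r - 1) := by
  obtain ⟨k, rfl⟩ : ∃ k, r = k + 1 := ⟨r - 1, by omega⟩
  unfold Q
  rw [Fintype.card_piFinset, Fin.prod_univ_succ]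
  simp

lemma lt_of_mem_Q {r Y : ℕ} {c : Fin r → ℕ} (hc : c ∈ Q r Y) (i : Fin r) :
    2 * (c i + 1) + 2 ≤ Y ∧ ((i : ℕ) = 0 → 2 * (2 * (c i + 1)) < Y) := by
  have h := Fintype.mem_piFinset.1 hc i
  rw [mem_range] at h
  split_ifs at h with h0 <;> constructor <;> intros <;> omega

/-- the `j`-th element of `s` -/
noncomputable def el {r : ℕ} (n : ℕ) (s : Finset (Fin r → ℕ)) (j : ℕ) : Fin r → ℕ :=
  if h : s.card = n ∧ j < n then ((Finset.equivFinOfCardEq h.1).symm ⟨j, h.2⟩ : Fin r → ℕ) else 0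

lemma el_mem {r n : ℕ} {s : Finset (Fin r → ℕ)} (hs : s.card = n) {j : ℕ} (hj : j < n) :
    el n s j ∈ s := by
  unfold el
  rw [dif_pos ⟨hs, hj⟩]
  exact Subtype.prop _

lemma el_inj {r n : ℕ} {s : Finset (Fin r → ℕ)} (hs : s.card = n) {j j' : ℕ} (hj : j < n)
    (hj' : j' < n) (h : el n s j = el n s j') : j = j' := by
  unfold el at h
  rw [dif_pos ⟨hs, hj⟩, dif_pos ⟨hs, hj'⟩] at h
  have := (Finset.equivFinOfCardEq hs).symm.injective (Subtype.ext h)
  simpa using this

lemma exists_el {r n : ℕ} {s : Finset (Fin r → ℕ)} (hs : s.card = n) {c : Fin r → ℕ}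
    (hc : c ∈ s) : ∃ j < n, el n s j = c := by
  refine ⟨Finset.equivFinOfCardEq hs ⟨c, hc⟩, (Finset.equivFinOfCardEq hs ⟨c, hc⟩).2, ?_⟩
  unfold el
  rw [dif_pos ⟨hs, (Finset.equivFinOfCardEq hs ⟨c, hc⟩).2⟩]
  simp

/-- sum of a balanced row -/
lemma sum_bal (n a : ℕ) (hn : 0 < n) :
    ∑ j ∈ range n, (a / n + if j < a % n then 1 else 0) = a := by
  rw [sum_add_distrib, sum_const, card_range, smul_eq_mul, ← card_filter]
  have h : (filter (fun j => j < a % n) (range n)) = range (a % n) := by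
    ext j
    simp only [mem_filter, mem_range]
    have := Nat.mod_lt a hn
    omega
  rw [h, card_range]
  exact Nat.div_add_mod a n

lemma sum_range_two_mul {M : Type*} [AddCommMonoid M] (f : ℕ → M) (n : ℕ) :
    ∑ q ∈ range (2 * n), f q = ∑ j ∈ range n, (f (2 * j) + f (2 * j + 1)) := by
  induction n with
  | zero => simp
  | succ n ih =>
    rw [show 2 * (n + 1) = 2 * n + 1 + 1 by ring, sum_range_succ, sum_range_succ, ih,
      sum_range_succ, add_assoc]

section

variable (r n Y2 : ℕ) (T : Fin r → ℕ)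

/-- the sum of the types of the pair `j` -/
def W (j : ℕ) (i : Fin r) : ℕ := T i / n + if j < T i % n then 1 else 0

/-- the type of the last letter if `N` is odd -/
def z (i : Fin r) : ℕ := if (i : ℕ) = 0 then Y2 + 1 else 2

/-- the first `r` coordinates of the type of the letter `q` -/
noncomputable def X (s : Finset (Fin r → ℕ)) (q : ℕ) (i : Fin r) : ℕ :=
  if q = 2 * n then z r Y2 i
  else if q % 2 = 0 then 2 * (el n s (q / 2) i + 1)
  else W r n T (q / 2) i - 2 * (el n s (q / 2) i + 1)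

end

section main

variable {r n Y1 Y2 : ℕ} {T : Fin r → ℕ} {s : Finset (Fin r → ℕ)}

lemma W_ge (hn : 0 < n) (h1 : ∀ i, n * Y1 ≤ T i) (j : ℕ) (i : Fin r) : Y1 ≤ W r n T j i := by
  have : Y1 ≤ T i / n := by
    rw [Nat.le_div_iff_mul_le hn]
    linarith [h1 i, mul_comm n Y1]
  unfold W
  omega

lemma W_le (hn : 0 < n) (h2 : ∀ i, T i < n * (Y2 + 1)) (j : ℕ) (i : Fin r) :
    W r n T j i ≤ Y2 + 1 := by
  have : T i / n < Y2 + 1 := by
    rw [Nat.div_lt_iff_lt_mul hn]
    linarith [h2 i, mul_comm n (Y2 + 1)]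
  unfold W
  split_ifs <;> omega

lemma X_two (i : Fin r) : X r n Y2 T s (2 * n) i = z r Y2 i := by
  unfold X; rw [if_pos rfl]

lemma X_even {j : ℕ} (hj : j < n) (i : Fin r) :
    X r n Y2 T s (2 * j) i = 2 * (el n s j i + 1) := by
  unfold X
  rw [if_neg (by omega), if_pos (by omega)]
  have : 2 * j / 2 = j := by omega
  rw [this]

lemma X_odd {j : ℕ} (hj : j < n) (i : Fin r) :
    X r n Y2 T s (2 * j + 1) i = W r n T j i - 2 * (el n s j i + 1) := by
  unfold X
  rw [if_neg (by omega), if_neg (by omega)]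
  have : (2 * j + 1) / 2 = j := by omega
  rw [this]

lemma cases_q {q n : ℕ} (hq : q < 2 * n + 1) :
    q = 2 * n ∨ (∃ j < n, q = 2 * j) ∨ ∃ j < n, q = 2 * j + 1 := by
  rcases Nat.even_or_odd' q with ⟨j, h | h⟩
  · by_cases hj : j = n
    · left; omega
    · right; left; exact ⟨j, by omega, h⟩
  · right; right; exact ⟨j, by omega, h⟩

variable (hn : 0 < n) (hs : s.card = n) (hsQ : s ⊆ Q r Y1) (h1 : ∀ i, n * Y1 ≤ T i)
  (h2 : ∀ i, T i < n * (Y2 + 1))
include hn hs hsQ h1 h2

lemma X_bounds (hY : 1 ≤ Y2) {q : ℕ} (hq : q < 2 * n + 1) (i : Fin r) :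
    2 ≤ X r n Y2 T s q i ∧ X r n Y2 T s q i ≤ Y2 + 1 := by
  rcases cases_q hq with rfl | ⟨j, hj, rfl⟩ | ⟨j, hj, rfl⟩
  · rw [X_two]; unfold z; split_ifs <;> omega
  · rw [X_even hj]
    have e1 := (lt_of_mem_Q (hsQ (el_mem hs hj)) i).1
    have e2 := W_ge hn h1 j i
    have e3 := W_le hn h2 j i
    omega
  · rw [X_odd hj]
    have e1 := (lt_of_mem_Q (hsQ (el_mem hs hj)) i).1
    have e2 := W_ge hn h1 j i
    have e3 := W_le hn h2 j i
    omega

lemma sum_X (i : Fin r) : ∑ q ∈ range (2 * n), X r n Y2 T s q i = T i := by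
  rw [sum_range_two_mul, ← sum_bal n (T i) hn]
  refine sum_congr rfl fun j hj => ?_
  rw [mem_range] at hj
  rw [X_even hj, X_odd hj]
  have e1 := (lt_of_mem_Q (hsQ (el_mem hs hj)) i).1
  have e2 := W_ge hn h1 j i
  change _ = W r n T j i
  omega

/-- the even letters are recognised by their coordinate `0` -/
lemma X_zero (hr : 0 < r) {q : ℕ} (hq : q < 2 * n + 1) :
    2 * X r n Y2 T s q ⟨0, hr⟩ < Y1 ↔ ∃ j < n, q = 2 * j := by
  have hj0 : 0 < n := hn
  have hYY : Y1 ≤ Y2 + 1 := (W_ge hn h1 0 ⟨0, hr⟩).trans (W_le hn h2 0 ⟨0, hr⟩)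
  constructor
  · intro h
    rcases cases_q hq with rfl | h' | ⟨j, hj, rfl⟩
    · rw [X_two] at h; unfold z at h; rw [if_pos rfl] at h; omega
    · exact h'
    · rw [X_odd hj] at h
      have e1 := (lt_of_mem_Q (hsQ (el_mem hs hj)) ⟨0, hr⟩).2 rfl
      have e2 := W_ge hn h1 j ⟨0, hr⟩
      omega
  · rintro ⟨j, hj, rfl⟩
    rw [X_even hj]
    exact (lt_of_mem_Q (hsQ (el_mem hs hj)) ⟨0, hr⟩).2 rfl

lemma X_inj (hr : 0 < r) {q q' : ℕ} (hq : q < 2 * n + 1) (hq' : q' < 2 * n + 1)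
    (h : ∀ i, X r n Y2 T s q i = X r n Y2 T s q' i) : q = q' := by
  have key := X_zero (Y2 := Y2) hn hs hsQ h1 h2 hr hq
  have key' := X_zero (Y2 := Y2) hn hs hsQ h1 h2 hr hq'
  rw [h ⟨0, hr⟩] at key
  have hiff := key.symm.trans key'
  by_cases he : ∃ j < n, q = 2 * j
  · obtain ⟨j, hj, rfl⟩ := he
    obtain ⟨j', hj', rfl⟩ := hiff.1 ⟨j, hj, rfl⟩
    have : el n s j = el n s j' := by
      funext i
      have := h i
      rw [X_even hj, X_even hj'] at this
      omega
    rw [el_inj hs hj hj' this]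
  · have he' : ¬ ∃ j < n, q' = 2 * j := fun h' => he (hiff.2 h')
    have z0 : ∀ j < n, X r n Y2 T s (2 * j + 1) ⟨0, hr⟩ < z r Y2 ⟨0, hr⟩ := by
      intro j hj
      rw [X_odd hj]
      have e1 := (lt_of_mem_Q (hsQ (el_mem hs hj)) ⟨0, hr⟩).1
      have e2 := W_ge hn h1 j ⟨0, hr⟩
      have e3 := W_le hn h2 j ⟨0, hr⟩
      unfold z
      rw [if_pos rfl]
      omega
    rcases cases_q hq with rfl | h' | ⟨j, hj, rfl⟩
    · rcases cases_q hq' with rfl | h' | ⟨j, hj, rfl⟩
      · rfl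
      · exact absurd h' he'
      · have := h ⟨0, hr⟩
        rw [X_two] at this
        have := z0 j hj
        omega
    · exact absurd h' he
    · rcases cases_q hq' with rfl | h' | ⟨j', hj', rfl⟩
      · have := h ⟨0, hr⟩
        rw [X_two] at this
        have := z0 j hj
        omega
      · exact absurd h' he'
      · have : el n s j = el n s j' := by
          funext i
          have := h i
          rw [X_odd hj, X_odd hj'] at this
          have e1 := (lt_of_mem_Q (hsQ (el_mem hs hj)) i).1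
          have e2 := (lt_of_mem_Q (hsQ (el_mem hs hj')) i).1
          have e3 := W_ge hn h1 j i
          have e4 := W_ge hn h1 j' i
          unfold W at *
          split_ifs at * <;> omega
        rw [el_inj hs hj hj' this]

/-- recovering the set `s` -/
lemma mem_iff (hr : 0 < r) {N : ℕ} (hN : N = 2 * n ∨ N = 2 * n + 1) {c : Fin r → ℕ}
    (hc : c ∈ Q r Y1) :
    c ∈ s ↔ ∃ q < N, ∀ i, X r n Y2 T s q i = 2 * (c i + 1) := by
  constructor
  · intro h
    obtain ⟨j, hj, rfl⟩ := exists_el hs h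
    exact ⟨2 * j, by omega, fun i => X_even hj i⟩
  · rintro ⟨q, hq, h⟩
    have h0 : 2 * X r n Y2 T s q ⟨0, hr⟩ < Y1 := by
      rw [h]
      exact (lt_of_mem_Q hc ⟨0, hr⟩).2 rfl
    obtain ⟨j, hj, rfl⟩ := (X_zero (Y2 := Y2) hn hs hsQ h1 h2 hr (by omega)).1 h0
    have : el n s j = c := by
      funext i
      have := h i
      rw [X_even hj] at this
      omega
    rw [← this]
    exact el_mem hs hj

end main

end Typ

open Typ in
/-- **[TYP]**: type systems with prescribed totals. The first `r` totals lie in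
`[n * Y1 + Y2 + 1, n * (Y2 + 1))`, the last one is arbitrary. -/
theorem typ {r N n Y1 Y2 t0 : ℕ} (hr : 2 ≤ r) (hn : 0 < n) (hN : N = 2 * n ∨ N = 2 * n + 1)
    (t : Fin N → ℕ) (ht : ∀ q, t0 ≤ t q) (tot : Fin (r + 1) → ℕ)
    (hsum : ∑ i, tot i = ∑ q, t q) (hY2 : 1 ≤ Y2)
    (h1 : ∀ i : Fin r, n * Y1 + Y2 + 1 ≤ tot i.castSucc)
    (h2 : ∀ i : Fin r, tot i.castSucc < n * (Y2 + 1))
    (hY : (r + 1) * (Y2 + 2) ≤ t0) :
    ∃ U : Finset (Fin N → Fin (r + 1) → ℕ),
      U.card = (((Y1 - 1) / 4) * (Y1 / 2 - 1) ^ (r - 1)).choose n ∧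
      ∀ u ∈ U, (∀ q, ∑ i, u q i = t q) ∧ (∀ i, ∑ q, u q i = tot i) ∧ Function.Injective u ∧
        (∀ q i, 2 ≤ u q i) ∧
        ∀ u' ∈ U, (∃ σ : Equiv.Perm (Fin N), ∀ q, u (σ q) = u' q) → u = u' := by
  classical
  have hr0 : 0 < r := by omega
  -- the totals of the pairs
  set T : Fin r → ℕ := fun i => if N = 2 * n then tot i.castSucc else tot i.castSucc - z r Y2 i
    with hT
  have hz : ∀ i, z r Y2 i ≤ Y2 + 1 := by intro i; unfold z; split_ifs <;> omega
  have hT1 : ∀ i, n * Y1 ≤ T i := by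
    intro i
    have := h1 i
    have := hz i
    simp only [hT]
    split_ifs <;> omega
  have hT2 : ∀ i, T i < n * (Y2 + 1) := by
    intro i
    have := h2 i
    simp only [hT]
    split_ifs <;> omega
  -- the family
  set u : Finset (Fin r → ℕ) → Fin N → Fin (r + 1) → ℕ := fun s q =>
    Fin.snoc (α := fun _ => ℕ) (X r n Y2 T s q) (t q - ∑ i, X r n Y2 T s q i) with hu
  have huc : ∀ s q (i : Fin r), u s q i.castSucc = X r n Y2 T s q i := by
    intro s q i; simp only [hu, Fin.snoc_castSucc]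
  have hul : ∀ s q, u s q (Fin.last r) = t q - ∑ i, X r n Y2 T s q i := by
    intro s q; simp only [hu, Fin.snoc_last]
  have hq1 : ∀ q : Fin N, (q : ℕ) < 2 * n + 1 := fun q => by have := q.2; omega
  have hle : ∀ s ∈ powersetCard n (Q r Y1), ∀ q : Fin N, ∑ i, X r n Y2 T s q i + 2 ≤ t q := by
    intro s hs q
    rw [mem_powersetCard] at hs
    have h3 : ∑ i, X r n Y2 T s q i ≤ ∑ _i : Fin r, (Y2 + 1) :=
      sum_le_sum fun i _ => (X_bounds hn hs.2 hs.1 hT1 hT2 hY2 (hq1 q) i).2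
    rw [sum_const, card_univ, Fintype.card_fin, smul_eq_mul] at h3
    have h4 := ht q
    nlinarith
  have hrow : ∀ s ∈ powersetCard n (Q r Y1), ∀ q, ∑ i, u s q i = t q := by
    intro s hs q
    rw [Fin.sum_univ_castSucc, hul]
    simp only [huc]
    have := hle s hs q
    omega
  have hcol : ∀ s ∈ powersetCard n (Q r Y1), ∀ i : Fin r,
      ∑ q, u s q i.castSucc = tot i.castSucc := by
    intro s hs i
    have hs' := mem_powersetCard.1 hs
    simp only [huc]
    rw [Fin.sum_univ_eq_sum_range (fun q => X r n Y2 T s q i) N]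
    have h3 := sum_X (Y2 := Y2) hn hs'.2 hs'.1 hT1 hT2 i
    rcases hN with rfl | rfl
    · rw [h3]; simp only [hT, if_true]
    · rw [sum_range_succ, h3, X_two]
      simp only [hT]
      rw [if_neg (by omega)]
      have := h1 i
      have := hz i
      omega
  have hinj : ∀ s ∈ powersetCard n (Q r Y1), Function.Injective (u s) := by
    intro s hs q q' h
    have hs' := mem_powersetCard.1 hs
    have : (q : ℕ) = q' := by
      refine X_inj (Y2 := Y2) hn hs'.2 hs'.1 hT1 hT2 hr0 (hq1 q) (hq1 q') fun i => ?_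
      rw [← huc, ← huc, h]
    exact Fin.ext this
  have hsep : ∀ s ∈ powersetCard n (Q r Y1), ∀ s' ∈ powersetCard n (Q r Y1),
      (∃ σ : Equiv.Perm (Fin N), ∀ q, u s (σ q) = u s' q) → s = s' := by
    rintro s hs s' hs' ⟨σ, hσ⟩
    have a1 := mem_powersetCard.1 hs
    have a2 := mem_powersetCard.1 hs'
    have key : ∀ c ∈ Q r Y1, (c ∈ s ↔ c ∈ s') := by
      intro c hc
      rw [mem_iff (Y2 := Y2) hn a1.2 a1.1 hT1 hT2 hr0 hN hc,
        mem_iff (Y2 := Y2) hn a2.2 a2.1 hT1 hT2 hr0 hN hc]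
      constructor
      · rintro ⟨q, hq, h⟩
        refine ⟨σ.symm ⟨q, hq⟩, Fin.is_lt _, fun i => ?_⟩
        rw [← huc, ← hσ, huc, Equiv.apply_symm_apply]
        exact h i
      · rintro ⟨q, hq, h⟩
        refine ⟨σ ⟨q, hq⟩, Fin.is_lt _, fun i => ?_⟩
        rw [← huc, hσ, huc]
        exact h i
    ext c
    by_cases hc : c ∈ Q r Y1
    · exact key c hc
    · exact ⟨fun h => absurd (a1.1 h) hc, fun h => absurd (a2.1 h) hc⟩
  refine ⟨(powersetCard n (Q r Y1)).image u, ?_, ?_⟩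
  · rw [card_image_of_injOn, card_powersetCard, card_Q hr]
    intro s hs s' hs' h
    rw [mem_coe] at hs hs'
    exact hsep s hs s' hs' ⟨1, fun q => by simpa using congrFun h q⟩
  · intro v hv
    obtain ⟨s, hs, rfl⟩ := mem_image.1 hv
    have hs' := mem_powersetCard.1 hs
    refine ⟨hrow s hs, ?_, hinj s hs, ?_, ?_⟩
    · intro i
      refine Fin.lastCases ?_ (fun i => hcol s hs i) i
      have e1 : ∑ i, ∑ q, u s q i = ∑ i, tot i := by
        rw [sum_comm, hsum]
        exact sum_congr rfl fun q _ => hrow s hs q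
      rw [Fin.sum_univ_castSucc, Fin.sum_univ_castSucc] at e1
      have e2 : ∑ i : Fin r, ∑ q, u s q i.castSucc = ∑ i : Fin r, tot i.castSucc :=
        sum_congr rfl fun i _ => hcol s hs i
      omega
    · intro q i
      refine Fin.lastCases ?_ (fun i => ?_) i
      · rw [hul]
        have := hle s hs q
        omega
      · rw [huc]
        exact (X_bounds hn hs'.2 hs'.1 hT1 hT2 hY2 (hq1 q) i).1
    · intro v' hv' hσ
      obtain ⟨s', hs2, rfl⟩ := mem_image.1 hv'
      rw [hsep s hs s' hs2 hσ]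

end Vale.Agent.P181.T7
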