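import Vale.Agent.P181.H328.Typ

/-!
P181, T7 (helper328): size of the type families of `Vale.Agent.P181.T7.typ`.
-/

set_option autoImplicit false

namespace Vale.Agent.P181.T7

open Finset

/-- `(P/n)^n ≤ C(P,n)` -/
theorem choose_ge {P n : ℕ} (h : n ≤ P) : ((P : ℝ) / n) ^ n ≤ (P.choose n : ℝ) := by
  induction n generalizing P with
  | zero => simp
  | succ n ih =>
    obtain ⟨P, rfl⟩ : ∃ P', P = P' + 1 := ⟨P - 1, by omega⟩
    have h1 : n ≤ P := by omega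
    have h2 := ih h1
    have h3 : ((P + 1 : ℕ) : ℝ) * (P.choose n : ℝ) = ((P + 1).choose (n + 1) : ℝ) * ((n + 1 : ℕ) : ℝ) := by
      exact_mod_cast Nat.add_one_mul_choose_eq P n
    have h4 : (0 : ℝ) < ((n + 1 : ℕ) : ℝ) := by positivity
    have h5 : ((P + 1).choose (n + 1) : ℝ) = ((P + 1 : ℕ) : ℝ) / ((n + 1 : ℕ) : ℝ) * (P.choose n : ℝ) := by
      field_simp
      linarith
    rw [h5, pow_succ']
    refine mul_le_mul_of_nonneg_left ?_ (by positivity)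
    refine le_trans ?_ h2
    rcases Nat.eq_zero_or_pos n with rfl | hn
    · simp
    · refine pow_le_pow_left₀ (by positivity) ?_ n
      have : (0 : ℝ) < n := by exact_mod_cast hn
      rw [div_le_div_iff₀ h4 this]
      push_cast
      have : (n : ℝ) ≤ P := by exact_mod_cast h1
      nlinarith

/-- `exp (c n) ≤ C(P,n)` as soon as `P ≥ n e^c` -/
theorem exp_le_choose {P n : ℕ} {c : ℝ} (hc : 0 ≤ c) (h : (n : ℝ) * Real.exp c ≤ P) :
    Real.exp (c * n) ≤ (P.choose n : ℝ) := by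
  have hnP : n ≤ P := by
    have h1 : (n : ℝ) ≤ n * Real.exp c := by
      have := Real.one_le_exp hc
      nlinarith [(Nat.cast_nonneg n : (0 : ℝ) ≤ n)]
    exact_mod_cast h1.trans h
  refine le_trans ?_ (choose_ge hnP)
  rcases Nat.eq_zero_or_pos n with rfl | hn
  · simp
  · have hn' : (0 : ℝ) < n := by exact_mod_cast hn
    rw [mul_comm, Real.exp_nat_mul]
    refine pow_le_pow_left₀ (Real.exp_pos c).le ?_ n
    rw [le_div_iff₀ hn']
    linarith

/-- the same with `N = 2n` or `2n+1` in the exponent -/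
theorem exp_le_choose' {P n N : ℕ} {c : ℝ} (hc : 0 ≤ c) (hn : 0 < n) (hN : N ≤ 2 * n + 1)
    (h : (n : ℝ) * Real.exp (3 * c) ≤ P) : Real.exp (c * N) ≤ (P.choose n : ℝ) := by
  refine le_trans (Real.exp_le_exp.2 ?_) (exp_le_choose (by positivity) h)
  have h1 : (N : ℝ) ≤ 3 * n := by
    have : N ≤ 3 * n := by omega
    exact_mod_cast this
  nlinarith

/-- lower bound for the box size -/
theorem box_ge {Y r : ℕ} (hr : 2 ≤ r) (hY : 16 ≤ Y) :
    ((Y : ℝ) / 8) ^ 2 ≤ ((((Y - 1) / 4) * (Y / 2 - 1) ^ (r - 1) : ℕ) : ℝ) := by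
  have h1 : (Y : ℝ) / 8 ≤ ((Y - 1) / 4 : ℕ) := by
    rw [div_le_iff₀ (by norm_num)]
    have : Y ≤ (Y - 1) / 4 * 8 := by omega
    exact_mod_cast this
  have h2 : (Y : ℝ) / 8 ≤ (Y / 2 - 1 : ℕ) := by
    rw [div_le_iff₀ (by norm_num)]
    have : Y ≤ (Y / 2 - 1) * 8 := by omega
    exact_mod_cast this
  have h3 : (Y / 2 - 1) ≤ (Y / 2 - 1) ^ (r - 1) := Nat.le_self_pow (by omega) _
  have h4 : (Y : ℝ) / 8 ≤ ((Y / 2 - 1) ^ (r - 1) : ℕ) := h2.trans (by exact_mod_cast h3)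
  have h0 : (0 : ℝ) ≤ (Y : ℝ) / 8 := by positivity
  rw [Nat.cast_mul, sq]
  exact mul_le_mul h1 h4 h0 (by positivity)

/-- the same with all factors -/
theorem box_ge' {Y r : ℕ} (hr : 1 ≤ r) (hY : 16 ≤ Y) :
    ((Y : ℝ) / 8) ^ r ≤ ((((Y - 1) / 4) * (Y / 2 - 1) ^ (r - 1) : ℕ) : ℝ) := by
  have h1 : (Y : ℝ) / 8 ≤ ((Y - 1) / 4 : ℕ) := by
    rw [div_le_iff₀ (by norm_num)]
    have : Y ≤ (Y - 1) / 4 * 8 := by omega
    exact_mod_cast this
  have h2 : (Y : ℝ) / 8 ≤ (Y / 2 - 1 : ℕ) := by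
    rw [div_le_iff₀ (by norm_num)]
    have : Y ≤ (Y / 2 - 1) * 8 := by omega
    exact_mod_cast this
  obtain ⟨k, rfl⟩ : ∃ k, r = k + 1 := ⟨r - 1, by omega⟩
  rw [pow_succ', Nat.cast_mul, Nat.cast_pow]
  simp only [Nat.add_sub_cancel]
  exact mul_le_mul h1 (pow_le_pow_left₀ (by positivity) h2 _) (by positivity) (by positivity)

end Vale.Agent.P181.T7
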